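import Vale.Agent.P183WA.Typed
import Vale.Agent.P183CF.RealEx
import Vale.Agent.P183CX.Gam

/-!
The first linear width step: raising the base to an irreducible node.
-/

set_option linter.unusedSectionVars false

namespace Vale.Agent.P183WA

open Vale.Agent.P183CF Vale.Agent.P183A Vale.Agent.P183NK Vale.Agent.P183NK.FS Module Subgroup

variable {p : ℕ} [Fact p.Prime] {V : Type} [AddCommGroup V] [Module (ZMod p) V] [Finite V]
  {S : FS p V} {F : Type} [Field F] [Finite F] [Module F V] {Z K : S.NR} {φ : Form F V}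
  {τ : F →+ ZMod p} {η : S.E}

/-- A field `K` of scalars inside `Z`, and an idempotent `η` of `Z`. -/
def Pair (S : FS p V) (Z K : S.NR) (η : S.E) : Prop :=
  (η = 1 ∧ K = Z) ∨ (S.Spl Z 1 η ∧ K = S.sym Z)

section

variable (hZ : S.Scal Z 1) (hP : Pair S Z K η)
include hZ hP

theorem Pair.le : K ≤ Z := hP.elim (fun c => c.2.le) fun c => c.2.le.trans (sym_le Z)

theorem Pair.mem : η ∈ Z := hP.elim (fun c => c.1 ▸ hZ.mem) fun c => c.1.mem

theorem Pair.idem : η * η = η := hP.elim (fun c => by rw [c.1, mul_one]) fun c => c.1.idem hZ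

theorem Pair.cent {z : S.E} (hz : z ∈ Z) : z ∈ S.cent K 1 :=
  cent_anti (hP.le hZ) 1 (hZ.le_cent hz)

theorem Pair.of_sym {z : S.E} (hz : z ∈ Z) (hs : S.st z = z) : z ∈ K :=
  hP.elim (fun c => c.2 ▸ hz) fun c => c.2 ▸ hZ.mem_sym.2 ⟨hz, hs⟩

theorem Pair.conj {g : S.Eˣ} (hg : g ∈ S.gam Z) {z : S.E} (hz : z ∈ K) : g⁻¹.1 * z * g.1 ∈ K := by
  have h1 := gam_Z' hZ hg (hP.le hZ hz)
  rcases hP with c | c
  · exact c.2 ▸ h1
  · refine c.2 ▸ hZ.mem_sym.2 ⟨h1, ?_⟩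
    rw [c.2] at hz
    simpa [hz.2.1] using gam_st hZ (inv_mem hg) (hZ.le_cent hz.1)

theorem Pair.mem_cent {x : S.E} (hx : x ∈ S.cent K 1) (hc : x * η = η * x) : x ∈ S.cent Z 1 := by
  rcases hP with c | c
  · exact c.2 ▸ hx
  rw [c.2, mem_cent_one] at hx
  refine mem_cent_one.2 fun z hz => ?_
  obtain ⟨s, hs, t, ht, rfl⟩ := c.1.decomp hZ hz
  have h1 : x * S.st η = S.st η * x := by
    rw [eq_sub_of_add_eq' c.1.add, mul_sub, sub_mul, hc, mul_one, one_mul]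
  rw [mul_add, add_mul, ← mul_assoc, ← mul_assoc, hx s hs, hx t ht, mul_assoc, mul_assoc, hc, h1,
    mul_assoc, mul_assoc]

theorem Pair.swap {g : S.Eˣ} (hg : g ∈ S.gam Z) :
    g.1 * η = η * g.1 ∨ g.1 * η = S.st η * g.1 := by
  rcases hP with c | ⟨s, -⟩
  · exact Or.inl (by rw [c.1, mul_one, one_mul])
  have e := gam_st hZ hg (hZ.le_cent s.mem)
  refine (s.eq_or hZ (η' := g.1 * η * g⁻¹.1) ⟨gam_Z hZ hg s.mem, ?_, ?_⟩).imp
    (Units.mul_inv_eq_iff_eq_mul g).1 (Units.mul_inv_eq_iff_eq_mul g).1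
  · rw [e, ← add_mul, ← mul_add, s.add, mul_one, Units.mul_inv]
  · rw [e, ← FS.conj_mul, s.mul, mul_zero, zero_mul]

omit hP in
theorem sing_spl (hK : K ≤ Z) (s : S.Spl Z 1 η) (x : V) : S.Sing K (η x) := fun z hz => by
  refine ⟨?_, ?_⟩
  · have := hZ.compat _ (mul_mem (hK hz) s.mem) 0 (zero_mem _) (by
      rw [st_mul, mul_assoc, ← mul_assoc η, s.mul, zero_mul, mul_zero, zero_mul]) x
    simpa using this
  · rw [← Module.End.mul_apply, hZ.comm z (hK hz) η s.mem, Module.End.mul_apply, S.st_spec,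
      ← Module.End.mul_apply, s.mul' hZ]
    simp

theorem Pair.tg (hK : S.Real K φ τ) {b : Subgroup S.Eˣ} (hb : b ≤ S.gam Z) {e e' : V →ₗ[F] V}
    (he : ∀ x, e x = η x) (he' : ∀ x, e' x = S.st η x) :
    TG φ e e' (S.iso (S.cent Z 1)) b := by
  refine ⟨fun x y => by rw [he, he', hK.adj (hP.cent hZ (hP.mem hZ))], ?_,
    fun g hg => Units.ext (LinearMap.ext hg), fun g hg x y hxy => hK.b_zero.2 fun c => ?_,
    fun hp g hg x hx => ?_, fun g hg => ?_, fun g hg => ?_, fun f hf hc => ⟨S.upU F f, ?_,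
      fun _ => rfl⟩⟩
  · rcases hP with c | ⟨s, c⟩
    · exact Or.inl fun x => by rw [he, c.1]; rfl
    · refine Or.inr fun x => ⟨?_, ?_, ?_, ?_⟩
      · rw [he, he', ← LinearMap.add_apply, s.add]; rfl
      · rw [he, he, ← Module.End.mul_apply, s.idem hZ]
      · rw [he]; exact hK.sing.1 (sing_spl hZ (c.le.trans (sym_le Z)) s x)
      · rw [he']; exact hK.sing.1 (sing_spl hZ (c.le.trans (sym_le Z)) (s.star hZ) x)
  · obtain ⟨d, hd⟩ := (hK.scal _).1 (mul_mem (hP.of_sym hZ (gam_mu hZ (hb hg)) (by simp))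
      (hP.conj hZ (hb hg) (hK.sc_mem c)))
    have h1 := hK.b_zero.1 hxy d
    rw [← hd] at h1
    change S.β (g.1 x) (c • g.1 y) = 0
    rw [S.st_spec]
    simpa using h1
  · rcases hP with c | ⟨s, -⟩
    · rw [← hK.sing, c.2] at hx ⊢
      exact gam_sing hZ (hb hg) hx
    · have h1 : η = 1 := LinearMap.ext fun x => (he x).symm.trans (hp x)
      exact absurd (by simpa [h1] using s.mul) hZ.ne
  · refine (hP.swap hZ (hb hg)).imp (fun c x => ?_) fun c x => ?_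
    · rw [he, he]; exact congrArg (fun f : S.E => f x) c
    · rw [he, he']; exact congrArg (fun f : S.E => f x) c
  · obtain ⟨-, f, hf, rfl⟩ := (hK.mem_iso' (cent_anti (hP.le hZ) 1)).1 hg
    refine ⟨f, hf, fun x => ?_, fun _ => rfl⟩
    rw [he, he]
    exact congrArg (fun f : S.E => f x) (iso_cent_comm hg (hP.mem hZ))
  · refine hK.upU_mem_iso.2 ⟨sub_mem (hP.mem_cent hZ (hK.up_mem _) (LinearMap.ext fun x => ?_))
      (one_mem_cent Z), hf⟩
    simpa [he] using hc x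

theorem Pair.le_finrank (hK : S.Real K φ τ) {n : ℕ} (hn : S.Rank Z 1 n) : n ≤ finrank F V := by
  have := hZ.toLoc.nontrivial
  have := Real.fd (F := F) (V := V)
  have h1 : Nat.card (LinearMap.range (1 : S.E)) = Nat.card V := by
    rw [show LinearMap.range (1 : S.E) = ⊤ from LinearMap.range_id]
    exact Nat.card_congr Submodule.topEquiv.toEquiv
  have h2 : Nat.card K ≤ Nat.card Z := Nat.card_le_card_of_injective
    (fun x : K => (⟨x.1, hP.le hZ x.2⟩ : Z)) fun _ _ e => Subtype.ext (congrArg (fun y : Z => y.1) e)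
  rw [Rank, h1, Module.natCard_eq_pow_finrank (K := F)] at hn
  rw [hK.card_K] at h2
  exact (Nat.pow_le_pow_iff_right Finite.one_lt_card).1 ((Nat.pow_le_pow_left h2 n).trans hn.ge)

end

theorem exists_pair (hZ : S.Scal Z 1) : ∃ K η, Pair S Z K η ∧ S.Scal K 1 ∧ S.IsFld K 1 := by
  rcases hZ.cases with c | ⟨η, s⟩
  · exact ⟨Z, 1, Or.inl ⟨rfl, rfl⟩, hZ, c⟩
  · exact ⟨_, η, Or.inr ⟨s, rfl⟩, hZ.sym_scal, fun x hx h0 => hZ.inv_sym hx h0⟩

/-- The first width step. -/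
theorem w12 : W12 := by
  refine ⟨10, 3, 14, fun p _ V _ _ _ S Z n H a b m k hL hn hm hH hg _ => ?_⟩
  have hZ := hL.scal
  obtain ⟨K, η, hP, h1, h2⟩ := exists_pair hZ
  obtain ⟨F, _, _, _, φ, τ, hK⟩ := exists_real h1 h2
  have := Real.fd (F := F) (V := V)
  have hη := hP.mem hZ
  have hT := hP.tg hZ hK hL.gam (e := dn η (hK.mem_cent.1 (hP.cent hZ hη)))
    (e' := dn (S.st η) (hK.mem_cent.1 (hP.cent hZ (hZ.star η hη)))) (fun _ => rfl) fun _ => rfl
  obtain ⟨a', h3, h4, h5⟩ := Ctx.main ⟨hT, hn.trans_le (hP.le_finrank hZ hK hL.rank), hL.top, hH,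
    hg.lt.le⟩ hm hg
  refine ⟨a', h3, h4, fun U hU hi => ?_⟩
  rcases h5 (hK.sub U fun z hz => hU z (hP.le hZ hz)) (hU η hη) hi with c | c | c | c
  · exact ⟨0, zero_mem _, mul_zero _, fun v => (SetLike.ext_iff.1 c v).trans eq_comm⟩
  · exact ⟨1, hZ.mem, mul_one _, fun v =>
      (SetLike.ext_iff.1 c v).trans ⟨fun _ => rfl, fun _ => trivial⟩⟩
  · exact ⟨η, hη, hP.idem hZ, fun v => (SetLike.ext_iff.1 c v).trans hT.mem_X⟩
  · exact ⟨S.st η, hZ.star η hη, by rw [← st_mul, hP.idem hZ],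
      fun v => (SetLike.ext_iff.1 c v).trans hT.symm.mem_X⟩

end Vale.Agent.P183WA
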