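import Vale.Agent.P183WA.Geo

/-!
Invariant subspaces: irreducibility, radicals, orthogonal decompositions, flags.
-/

set_option linter.unusedSectionVars false

namespace Vale.Agent.P183WA

open Vale.Agent.P183CF Vale.Agent.P183CF.Form Vale.Agent.P183A Module Subgroup
open scoped commutatorElement

variable {F V G : Type} [Field F] [AddCommGroup V] [Module F V] [Group G] [DistribMulAction G V]
  {H K I b : Subgroup G} {U T W M : Submodule F V} {φ : Form F V} {e e' : V →ₗ[F] V} {g : G}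

/-- No nonzero singular vector. -/
def An (φ : Form F V) (R : Submodule F V) : Prop := ∀ x ∈ R, φ.Q x = 0 → x = 0

/-- `H`-invariant split subspaces are determined by their part in `range e`. -/
def P1 (e : V →ₗ[F] V) (H : Subgroup G) : Prop :=
  ∀ U W : Submodule F V, Spl e U → Inv H U → Inv H W → (∀ x ∈ U, e x = x → x ∈ W) → U ≤ W

/-- The relevant totally singular subspaces. -/
structure Rel (φ : Form F V) (e e' : V →ₗ[F] V) (H : Subgroup G) (U : Submodule F V) : Prop where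
  spl : Spl e U
  ts : φ.TS U
  nt : ¬ Triv e e' U
  inv : Inv H U
  p1 : P1 e H ∨ ∀ x ∈ U, e x = x

theorem Rel.exists_not (hU : Rel φ e e' H U) (hW : Inv H W) (h : ¬ U ≤ W) :
    ∃ x ∈ U, e x = x ∧ x ∉ W := by
  by_contra c
  push Not at c
  exact h (hU.p1.elim (fun h1 => h1 U W hU.spl hU.inv hW c) fun h1 x hx => c x hx (h1 x hx))

variable (G) in
/-- The elements that commute with `e`. -/
def ce (e : V →ₗ[F] V) : Subgroup G where
  carrier := {g | ∀ x, g • e x = e (g • x)}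
  one_mem' := fun x => by rw [one_smul, one_smul]
  mul_mem' := fun {a c} ha hc x => by rw [mul_smul, mul_smul, hc, ha]
  inv_mem' := fun {a} ha x => by rw [inv_smul_eq_iff, ha, smul_inv_smul]

theorem comm_sup_le {A B : Subgroup G} (h : Cm A B) : ⁅A ⊔ B, A ⊔ B⁆ ≤ ⁅A, A⁆ ⊔ ⁅B, B⁆ := by
  refine commutator_le.2 fun g hg k hk => ?_
  obtain ⟨a, ha, c, hc, rfl⟩ := h.nm.mem_sup.1 hg
  obtain ⟨a', ha', c', hc', rfl⟩ := h.nm.mem_sup.1 hk
  have h1 : ⁅c, c'⁆ ∈ B := commutator_le_self _ (commutator_mem_commutator hc hc')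
  have : ⁅a * c, a' * c'⁆ = ⁅a, a'⁆ * ⁅c, c'⁆ := by
    calc ⁅a * c, a' * c'⁆ = a * (c * a') * (c' * c⁻¹ * a⁻¹) * c'⁻¹ * a'⁻¹ := by
          simp only [commutatorElement_def]; group
      _ = a * a' * (c * (a⁻¹ * (c' * c⁻¹)) * c'⁻¹) * a'⁻¹ := by
          rw [← h a' ha' c hc, h _ (inv_mem ha) _ (mul_mem hc' (inv_mem hc))]; group
      _ = a * a' * a⁻¹ * (⁅c, c'⁆ * a'⁻¹) := by
          rw [← mul_assoc c, ← h _ (inv_mem ha) c hc]; simp only [commutatorElement_def]; group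
      _ = _ := by rw [← h _ (inv_mem ha') _ h1]; simp only [commutatorElement_def]; group
  rw [this]
  exact mul_mem (mem_sup_left (commutator_mem_commutator ha ha'))
    (mem_sup_right (commutator_mem_commutator hc hc'))

variable [Finite F] [FiniteDimensional F V]

theorem An.finrank_le (h : An φ W) : finrank F W ≤ 2 := by
  by_contra c
  obtain ⟨x, hx, h0, h1⟩ := φ.exists_sing W (by omega)
  exact h0 (h x hx h1)

/-- A complement of the radical through a given vector. -/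
theorem exists_nd {w : V} (hw : w ∈ W) (hw' : w ∉ φ.perp W) :
    ∃ C ≤ W, w ∈ C ∧ φ.Nd C ∧ W ≤ C ⊔ W ⊓ φ.perp W := by
  obtain ⟨C, h1, h2⟩ := (Submodule.disjoint_span_singleton_of_notMem
    (s := W ⊓ φ.perp W) fun c => hw' c.2).symm.exists_isCompl
  have h3 : W ≤ C ⊓ W ⊔ W ⊓ φ.perp W := by
    rw [sup_comm, ← sup_inf_assoc_of_le C (inf_le_left : W ⊓ φ.perp W ≤ W), sup_comm,
      h2.sup_eq_top, top_inf_eq]
  refine ⟨C ⊓ W, inf_le_right, ⟨h1 (Submodule.mem_span_singleton_self w), hw⟩, ?_, h3⟩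
  rw [Nd, eq_bot_iff, ← h2.inf_eq_bot]
  rintro x ⟨hx, hx'⟩
  refine ⟨hx.1, hx.2, fun y hy => ?_⟩
  obtain ⟨s, hs, t, ht, rfl⟩ := Submodule.mem_sup.1 (h3 hy)
  rw [map_add, LinearMap.add_apply, hx' s hs, φ.b_symm_zero (ht.2 x hx.2), add_zero]

namespace TG

variable (h : TG φ e e' I b) (hd : 11 ≤ finrank F V)
include h

theorem fix_of_an (hg : g ∈ I) (hR : W ≤ φ.perp W) (ha : An φ W) (hW : ∀ x ∈ W, g • x ∈ W) :
    g ∈ fx G W := mem_fx.2 fun x hx => sub_eq_zero.1 (ha _ (sub_mem (hW x hx) hx) (by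
  rw [Q_sub, h.Q_smul hg, hR hx _ (hW x hx), map_zero, sub_zero]
  nth_rewrite 2 [Form.Q]
  rw [← md_bar, Form.Q, ← map_add, ← φ.b_self, hR hx x hx, map_zero]))

/-- The isometric component of an isometry on a nondegenerate subspace. -/
theorem exists_comp (hW : φ.Nd W) (hs : Spl e W) (hg : g ∈ I) (h1 : ∀ x ∈ W, g • x ∈ W) :
    ∃ k ∈ I ⊓ fx G (φ.perp W), ∀ x ∈ W, k • x = g • x := by
  obtain ⟨f, hf, c1, c2⟩ := h.lin g hg
  simp only [c2] at h1 ⊢
  let π := W.projection _ hW.isCompl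
  let L : V →ₗ[F] V := f.toLinearMap ∘ₗ π + (LinearMap.id - π)
  have hL : ∀ y ∈ W, ∀ z ∈ φ.perp W, L (y + z) = f y + z := fun y hy z hz => by
    have e1 : π y = y := Submodule.projection_apply_of_mem_left _ hy
    have e2 : π z = 0 := Submodule.projection_apply_of_mem_right _ hz
    simp [L, e1, e2]
  have hb : ∀ x y, φ.b (L x) (L y) = φ.b x y := fun x y => by
    obtain ⟨s, hs, t, ht, rfl⟩ := hW.decomp x
    obtain ⟨s', hs', t', ht', rfl⟩ := hW.decomp y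
    rw [hL s hs t ht, hL s' hs' t' ht']
    simp only [map_add, LinearMap.add_apply, hf.1, ht' _ hs, ht' _ (h1 s hs),
      φ.b_symm_zero (ht _ hs'), φ.b_symm_zero (ht _ (h1 s' hs'))]
  have hinj : Function.Injective L := (injective_iff_map_eq_zero _).2 fun x hx =>
    φ.nondeg x fun y => by rw [← hb, hx, map_zero, LinearMap.zero_apply]
  obtain ⟨k, hk, c3⟩ := h.lift (LinearEquiv.ofInjectiveEndo L hinj) ⟨hb, fun x => by
    obtain ⟨s, hs, t, ht, rfl⟩ := hW.decomp x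
    change φ.Q (L _) = _
    rw [hL s hs t ht, Q_add, Q_add, hf.2, ht _ hs, ht _ (h1 s hs)]⟩ fun x => by
    obtain ⟨s, hs', t, ht, rfl⟩ := hW.decomp x
    change L _ = e (L _)
    rw [map_add e, hL _ (hs s hs') _ (h.spl_perp hs t ht), hL s hs' t ht, map_add, c1]
  refine ⟨k, ⟨hk, mem_fx.2 fun x hx => ?_⟩, fun x hx => ?_⟩
  · simpa [c3] using hL 0 (zero_mem _) x hx
  · simpa [c3] using hL x hx 0 (zero_mem _)

theorem dec (hW : φ.Nd W) (hs : Spl e W) (hK : K ≤ I) (h1 : Inv K W) :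
    ⁅K, K⁆ ≤ (⁅I, I⁆ ⊓ fx G W) ⊔ (⁅I, I⁆ ⊓ fx G (φ.perp W)) := by
  have h3 : K ≤ (I ⊓ fx G W) ⊔ (I ⊓ fx G (φ.perp W)) := fun g hg => by
    obtain ⟨k, hk, h4⟩ := h.exists_comp hW hs (hK hg) (h1 g hg)
    rw [← mul_inv_cancel_left k g]
    refine mul_mem (mem_sup_right hk) (mem_sup_left ⟨I.mul_mem (I.inv_mem hk.1) (hK hg),
      mem_fx.2 fun x hx => ?_⟩)
    rw [mul_smul, inv_smul_eq_iff, h4 x hx]
  refine (commutator_mono h3 h3).trans ((comm_sup_le h.cm_fx).trans (sup_le_sup ?_ ?_)) <;>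
    exact le_inf (commutator_mono inf_le_left inf_le_left)
      ((commutator_le_self _).trans inf_le_right)

theorem p1_or (hH : H ≤ b) : P1 e H ∨ (TyA φ e e' ∧ H ≤ ce G e) := by
  rcases h.typ with hp | ha
  · exact Or.inl fun U W _ _ _ c x hx => c x hx (hp x)
  by_cases c : H ≤ ce G e
  · exact Or.inr ⟨ha, c⟩
  obtain ⟨s, hs, c⟩ := SetLike.not_le_iff_exists.1 c
  have h1 := (h.swap s (hH hs)).resolve_left c
  refine Or.inl fun U W hU iU iW c x hx => ?_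
  rw [← ha.add x]
  refine add_mem (c _ (hU x hx) (ha.ee x)) ?_
  rw [← smul_inv_smul s x, ← h1]
  exact iW s hs _ (c _ (hU _ (iU _ (inv_mem hs) x hx)) (ha.ee _))

theorem eq_X (ha : TyA φ e e') (hU : U ≤ φ.perp U) (h1 : LinearMap.range e ≤ U) :
    U = LinearMap.range e :=
  le_antisymm (hU.trans ((φ.perp_anti h1).trans (h.perp_X ha).le)) h1

theorem exists_rel (hH : H ≤ K) (hK : K ≤ b) (hI : K ≤ H ⊔ I) (hs : Spl e U) (ht : φ.TS U)
    (hn : ¬ Triv e e' U) (hi : Inv K U) :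
    ∃ U', Rel φ e e' H U' ∧ Inv K U' ∧ (Pol e → U' = U) := by
  by_cases hp : P1 e H
  · exact ⟨U, ⟨hs, ht, hn, hi.mono hH, Or.inl hp⟩, hi, fun _ => rfl⟩
  obtain ⟨ha, hc⟩ := (h.p1_or (hH.trans hK)).resolve_left hp
  have hq : ¬ Pol e := fun hq => hp fun U W _ _ _ c x hx => c x hx (hq x)
  have hX : Inv K (LinearMap.range e) := by
    rintro g hg _ ⟨x, rfl⟩
    exact ⟨_, ((hI.trans (sup_le hc fun k hk => h.e_comm hk)) hg x).symm⟩
  have key : ∀ T, Inv K T → T ⊓ LinearMap.range e ≠ ⊥ → ¬ LinearMap.range e ≤ T →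
      ∃ U', Rel φ e e' H U' ∧ Inv K U' ∧ (Pol e → U' = U) := fun T iT h1 h2 => by
    have h3 : ∀ x ∈ T ⊓ LinearMap.range e, e x = x := fun x hx => h.mem_X.1 hx.2
    refine ⟨_, ⟨fun x hx => by rwa [h3 x hx], ⟨fun x hx => ha.Q_of (h3 x hx), fun x hx y hy =>
      h.bXX ha (h3 y hy) (h3 x hx)⟩, ?_, (iT.inf hX).mono hH, Or.inr h3⟩, iT.inf hX,
      fun c => absurd c hq⟩
    rintro (c | c | c | c)
    · exact h1 c
    · exact h2 (le_top.trans (c.ge.trans inf_le_left))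
    · exact h2 (c.ge.trans inf_le_left)
    · exact h1 (eq_bot_iff.2 fun x hx => ha.zero_of (h3 x hx) (h.symm.mem_X.1 (c.le hx)))
  have h4 : ∀ T, Spl e T → T ⊓ LinearMap.range e = ⊥ → T ≤ LinearMap.range e' := fun T hT c x hx =>
    ⟨x, by
      have : e x ∈ T ⊓ LinearMap.range e := ⟨hT x hx, x, rfl⟩
      rw [c, Submodule.mem_bot] at this
      rw [ha.e'_eq, this, sub_zero]⟩
  by_cases c : U ⊓ LinearMap.range e = ⊥
  · refine key _ (h.inv_perp hK hi) (fun c' => hn (Or.inr (Or.inr (Or.inr ?_)))) fun c' => hn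
      (Or.inl ?_)
    · refine h.symm.eq_X ha.symm ht.2 ?_
      rw [← φ.perp_le_perp, h.symm.perp_X ha.symm]
      exact h4 _ (h.spl_perp hs) c'
    · rw [← c, left_eq_inf, ← h.perp_X ha]
      exact φ.le_perp_comm.1 c'
  · exact key U hi c fun c' => hn (Or.inr (Or.inr (Or.inl (h.eq_X ha ht.2 c'))))

/-- The radical of an invariant subspace when there is no invariant totally singular subspace. -/
theorem rad (hK : K ≤ b) (hn : Nontrivial V)
    (ht : ∀ U, Spl e U → Inv K U → φ.TS U → Triv e e' U) (hs : Spl e W) (hi : Inv K W) :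
    (TyA φ e e' ∧ (W = LinearMap.range e ∨ W = LinearMap.range e')) ∨ An φ (W ⊓ φ.perp W) := by
  have hR : ∀ x ∈ W ⊓ φ.perp W, ∀ y ∈ W ⊓ φ.perp W, φ.b x y = 0 := fun x hx y hy => hy.2 x hx.1
  let R : Submodule F V :=
    { carrier := {x | x ∈ W ⊓ φ.perp W ∧ φ.Q x = 0}
      zero_mem' := ⟨zero_mem _, φ.Q_zero⟩
      add_mem' := fun {x y} hx hy => ⟨add_mem hx.1 hy.1, by
        rw [Q_add, hx.2, hy.2, hR x hx.1 y hy.1]; simp⟩
      smul_mem' := fun c x hx => ⟨Submodule.smul_mem _ c hx.1, φ.Q_smul_zero hx.2 c⟩ }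
  have s1 := hs.inf (h.spl_perp hs)
  have i1 := hi.inf (h.inv_perp hK hi)
  have hA : TyA φ e e' → ∀ x ∈ W ⊓ φ.perp W, φ.Q x = 0 := fun ha x hx => by
    rw [← ha.add x, Q_add, (ha x).2.2.1, (ha x).2.2.2, hR _ (s1 x hx) _ (h.spl' s1 x hx)]
    simp
  have tR : φ.TS R := ⟨fun x hx => hx.2, fun x hx y hy => hR y hy.1 x hx.1⟩
  have top : R ≠ ⊤ := fun c => by
    obtain ⟨x, hx⟩ := exists_ne (0 : V)
    exact hx (φ.nondeg x fun y => tR.b_zero (c ▸ trivial) (c ▸ trivial))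
  have key : ∀ {e e' : V →ₗ[F] V}, TG φ e e' I b → TyA φ e e' → R = LinearMap.range e →
      W = LinearMap.range e := fun h ha c => le_antisymm (by
    rw [← h.perp_X ha, ← c]
    exact fun x hx y hy => φ.b_symm_zero (hy.1.2 x hx)) (c.ge.trans fun x hx => hx.1.1)
  have := ht R (fun x hx => ⟨s1 x hx.1, h.typ.elim (fun hp => by rw [hp]; exact hx.2)
    fun ha => (ha x).2.2.1⟩) (fun g hg x hx => ⟨i1 g hg x hx.1, h.typ.elim
      (fun hp => h.sing hp g (hK hg) x hx.2) fun ha => hA ha _ (i1 g hg x hx.1)⟩) tR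
  rcases this with c | c | c | c
  · exact Or.inr fun x hx hq => (Submodule.mem_bot F).1 (c.le ⟨hx, hq⟩)
  · exact absurd c top
  · rcases h.typ with hp | ha
    · exact absurd (c.trans (eq_top_iff.2 fun x _ => ⟨x, hp x⟩)) top
    · exact Or.inl ⟨ha, Or.inl (key h ha c)⟩
  · rcases h.typ with hp | ha
    · exact absurd (c.trans (eq_top_iff.2 fun x _ => ⟨x, h.pol' hp x⟩)) top
    · exact Or.inl ⟨ha, Or.inr (key h.symm ha.symm c)⟩

theorem an_A (ha : TyA φ e e') (hs : Spl e W) (hW : An φ W) : W = ⊥ := eq_bot_iff.2 fun x hx => by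
  rw [← ha.add x, hW _ (hs x hx) (ha x).2.2.1, hW _ (h.spl' hs x hx) (ha x).2.2.2, add_zero]
  exact zero_mem _

theorem eq_one_of_fix (ha : TyA φ e e') (hg : g ∈ I) (hX : g ∈ fx G (LinearMap.range e)) :
    g = 1 := h.faith g fun x => by
  have h1 := h.sub_mem_perp hg hX (e' x)
  rw [h.perp_X ha, h.mem_X, h.symm.e_comm hg, ← map_sub, ha.ee', map_sub, eq_comm,
    sub_eq_zero] at h1
  conv_lhs => rw [← ha.add x, smul_add, mem_fx.1 hX _ ⟨x, rfl⟩, h.symm.e_comm hg, h1, ha.add]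

include hd

theorem irr_pol (hp : Pol e) (hM : M ≤ W) (hi : Inv (⁅I, I⁆ ⊓ fx G (φ.perp W)) M)
    (hW : finrank F (W ⊓ φ.perp W : Submodule F V) + 9 ≤ finrank F W) :
    M ≤ φ.perp W ∨ W ≤ M := by
  by_contra c
  push Not at c
  obtain ⟨x, hx, hx'⟩ := SetLike.not_le_iff_exists.1 c.1
  obtain ⟨w, hw, hw1, hw2⟩ : ∃ w ∈ W, w ∉ M ∧ w ∉ φ.perp W := by
    obtain ⟨w, hw, hw'⟩ := SetLike.not_le_iff_exists.1 c.2
    by_cases c' : w ∈ φ.perp W
    · exact ⟨w + x, add_mem hw (hM hx), fun c => hw' ((add_mem_cancel_right hx).1 c),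
        fun c => hx' ((add_mem_cancel_left c').1 c)⟩
    · exact ⟨w, hw, hw', c'⟩
  obtain ⟨C, h1, h2, h3, h4⟩ := exists_nd hw hw2
  have d1 := Submodule.finrank_mono h4
  have d2 := Submodule.finrank_add_le_finrank_add_finrank C (W ⊓ φ.perp W)
  refine hw1 (le_of_inv h3 (by omega) M.toAddSubgroup (fun f hf y hy => ?_) hx (fun c => hx' ?_)
    w h2)
  · obtain ⟨g, hg, h5⟩ := h.eich_pol hd hp (EW_mono le_top hf)
    rw [← h5]
    exact hi g ⟨hg, mem_fx.2 fun z hz => by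
      rw [h5, (EW_le_IW C hf).2 z (φ.perp_anti h1 hz)]⟩ y hy
  · intro y hy
    obtain ⟨s, hs, t, ht, rfl⟩ := Submodule.mem_sup.1 (h4 hy)
    rw [map_add, LinearMap.add_apply, c s hs, φ.b_symm_zero (ht.2 x (hM hx)), add_zero]

theorem irr_A (ha : TyA φ e e') (hW : φ.Nd W) (hs : Spl e W)
    (hi : Inv (⁅I, I⁆ ⊓ fx G (φ.perp W)) M) {x u : V} (hx : x ∈ M) (hxW : x ∈ W) (hx0 : x ≠ 0)
    (hx1 : e x = x) (hu : u ∈ W) (hu1 : e u = u) : u ∈ M := by
  by_cases c : x ∈ F ∙ u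
  · obtain ⟨t, rfl⟩ := Submodule.mem_span_singleton.1 c
    exact (M.smul_mem_iff (left_ne_zero_of_smul hx0)).1 hx
  obtain ⟨f, h1, h2⟩ := exists_fun c
  obtain ⟨w, hw, h3⟩ := hW.riesz f
  obtain ⟨g, hg, l, -, h4⟩ := h.eich hd hu1 (h.symm.ee w) (ha.Q_of hu1) (φ.b_symm_zero (by
    rw [h.adj', hu1, h3 u hu, h2 u (Submodule.mem_span_singleton_self u)]))
  have h5 := sub_mem (hi g ⟨hg, mem_fx.2 fun y hy => sub_eq_zero.1 (by
    rw [h4, hy u hu, hy _ (h.spl' hs w hw)]; simp)⟩ x hx) hx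
  rw [h4, h.bXX ha hu1 hx1, h.adj', hx1, h3 x hxW, h1] at h5
  simpa [M.smul_mem_iff φ.ε_ne] using h5

theorem om_irr (hs : Spl e U) (hi : Inv ⁅I, I⁆ U) : Triv e e' U := by
  have hi' : Inv (⁅I, I⁆ ⊓ fx G (φ.perp ⊤)) U := hi.mono inf_le_left
  rcases h.typ with hp | ha
  · rcases h.irr_pol hd hp le_top hi' (by rw [perp_top, top_inf_eq]; simp; omega) with c | c
    · exact Or.inl (by simpa using c)
    · exact Or.inr (Or.inl (top_le_iff.1 c))
  have key : ∀ {e e' : V →ₗ[F] V}, TG φ e e' I b → TyA φ e e' → Spl e U →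
      (∀ x ∈ U, e x = 0) ∨ ∀ x, e x ∈ U := fun {e e'} h ha hs => by
    refine or_iff_not_imp_left.2 fun c x => ?_
    push Not at c
    obtain ⟨y, hy, c⟩ := c
    exact h.irr_A hd ha φ.nd_top (fun _ _ => trivial) hi' (hs y hy) trivial c (ha.ee y) trivial
      (ha.ee x)
  rcases key h ha hs with c | c <;> rcases key h.symm ha.symm (h.spl' hs) with c' | c'
  · exact Or.inl (eq_bot_iff.2 fun x hx => by rw [← ha.add x, c x hx, c' x hx]; simp)
  · exact Or.inr (Or.inr (Or.inr (le_antisymm (fun x hx => ⟨x, by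
      rw [ha.e'_eq, c x hx, sub_zero]⟩) (by rintro _ ⟨x, rfl⟩; exact c' x))))
  · exact Or.inr (Or.inr (Or.inl (le_antisymm (fun x hx => ⟨x, by
      rw [ha.symm.e'_eq, c' x hx, sub_zero]⟩) (by rintro _ ⟨x, rfl⟩; exact c x))))
  · exact Or.inr (Or.inl (eq_top_iff.2 fun x _ => ha.add x ▸ add_mem (c x) (c' x)))

theorem eich_qu (ht : φ.TS U) {u v : V} (hu : e u = u) (hv : e' v = v) (huU : u ∈ U)
    (hvU : v ∈ φ.perp U) : ∃ g ∈ ⁅I, I⁆ ⊓ qu G U (φ.perp U), ∃ l : F,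
      (TyA φ e e' → ¬ Pol e → l = 0) ∧
      ∀ x, g • x - x = φ.b u x • v - (φ.ε * (φ.b v x + l * φ.b u x)) • u := by
  obtain ⟨g, hg, l, h1, h2⟩ := h.eich hd hu hv (ht.1 u huU) (hvU u huU)
  refine ⟨g, ⟨hg, fun x hx => sub_eq_zero.1 ?_, fun x hx => ?_⟩, l, h1, h2⟩
  · rw [h2, ht.b_zero huU hx, φ.b_symm_zero (hvU x hx)]; simp
  · rw [h2, hx u huU, zero_smul, zero_sub]
    exact neg_mem (U.smul_mem _ huU)

/-- Comparability of totally singular subspaces. -/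
theorem cmp (hH : H ≤ b) (hU : Rel φ e e' H U) (hW : Rel φ e e' H W)
    (hQ : ⁅I, I⁆ ⊓ qu G U (φ.perp U) ≤ H) :
    U ≤ W ∨ W ≤ U ∨ (Pol e ∧ φ.perp U = U ∧ ∃ u, U ≤ U ⊓ W ⊔ F ∙ u) := by
  by_cases c : W ≤ φ.perp U
  · refine or_iff_not_imp_left.2 fun c1 => Or.inl (by_contra fun c2 => ?_)
    obtain ⟨u, hu, hu1, hu2⟩ := hU.exists_not hW.inv c1
    obtain ⟨x, hx, hx1, hx2⟩ := hW.exists_not hU.inv c2
    obtain ⟨v, hv, hv1, hv2⟩ := h.exists_dual hU.spl hx1 hx2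
    obtain ⟨g, hg, l, -, h1⟩ := h.eich_qu hd hU.ts hu1 hv1 hu hv
    have h2 := sub_mem (hW.inv g (hQ hg) x hx) hx
    rw [h1, c hx u hu, hv2] at h2
    exact hu2 (by simpa [W.smul_mem_iff φ.ε_ne] using h2)
  obtain ⟨x, hx, hx1, hx2⟩ := hW.exists_not (h.inv_perp hH hU.inv) c
  rw [mem_perp] at hx2
  push Not at hx2
  obtain ⟨u, hu, hux⟩ := hx2
  by_cases hp : Pol e
  · have h1 : ∀ v ∈ φ.perp U, ∃ w ∈ W, ∃ t : F, v = w + t • u := fun v hv => by
      obtain ⟨g, hg, l, -, h1⟩ := h.eich_qu hd hU.ts (hp u) (h.pol' hp v) hu hv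
      have h2 := W.smul_mem (φ.b u x)⁻¹ (sub_mem (hW.inv g (hQ hg) x hx) hx)
      rw [h1, smul_sub, smul_smul, smul_smul, inv_mul_cancel₀ hux, one_smul] at h2
      exact ⟨_, h2, _, (sub_add_cancel _ _).symm⟩
    refine Or.inr (Or.inr ⟨hp, le_antisymm ?_ hU.ts.2, u, fun v hv => ?_⟩)
    · conv_rhs => rw [← φ.perp_perp U]
      intro v hv v' hv'
      obtain ⟨w, hw, t, e1⟩ := h1 v hv
      obtain ⟨w', hw', t', e2⟩ := h1 v' hv'
      have h2 : φ.b u w = 0 := by simpa [e1, hU.ts.b_zero hu hu] using hv u hu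
      rw [e1, map_add, map_smul, φ.b_symm_zero (hv' u hu), e2]
      simp [h2, hW.ts.b_zero hw' hw]
    · obtain ⟨w, hw, t, e1⟩ := h1 v (hU.ts.2 hv)
      refine mem_sup_span.2 ⟨w, ⟨?_, hw⟩, t, e1⟩
      rw [eq_sub_of_add_eq e1.symm]
      exact sub_mem hv (U.smul_mem t hu)
  have ha := h.typ.resolve_left hp
  have h1 : P1 e H := hU.p1.resolve_right fun c => hux (h.bXX ha (c u hu) hx1)
  refine Or.inl (hU.ts.2.trans (h1 _ W (h.spl_perp hU.spl) (h.inv_perp hH hU.inv) hW.inv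
    fun v hv hv1 => ?_))
  obtain ⟨g, hg, l, hl, h2⟩ := h.symm.eich_qu hd hU.ts (ha.e'e' u) hv1 (h.spl' hU.spl u hu) hv
  have h3 := sub_mem (hW.inv g (hQ hg) x hx) hx
  rw [h2, hl ha.symm fun c => hp (h.symm.pol' c), h.bXX ha hv1 hx1, h.adj', hx1] at h3
  simpa [W.smul_mem_iff hux] using h3

/-- The stabiliser of the ends of a chain moves the middle. -/
theorem chain3 (hU : Rel φ e e' H U) (hW : Rel φ e e' H W) (hT : Rel φ e e' H T) (h1 : U < W)
    (h2 : W < T) : ∃ g ∈ ⁅I, I⁆, (∀ x ∈ U, g • x ∈ U) ∧ (∀ x ∈ T, g • x ∈ T) ∧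
      ¬ ∀ x ∈ W, g • x ∈ W := by
  obtain ⟨u, hu, hu1, hu2⟩ := hT.exists_not hW.inv h2.not_ge
  obtain ⟨x, hx, hx1, hx2⟩ := hW.exists_not hU.inv h1.not_ge
  have hx3 : x ∉ U ⊔ F ∙ u := fun c => by
    obtain ⟨y, hy, t, rfl⟩ := mem_sup_span.1 c
    have h3 : t ≠ 0 := fun c => hx2 (by simpa [c] using hy)
    exact hu2 ((W.smul_mem_iff h3).1 ((add_mem_cancel_left (h1.le hy)).1 hx))
  obtain ⟨v, hv, hv1, hv2⟩ := h.exists_dual (hU.spl.sup (spl_span hu1)) hx1 hx3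
  obtain ⟨g, hg, l, -, h3⟩ := h.eich hd hu1 hv1 (hT.ts.1 u hu) (hv u (mem_sup_span_r U u))
  have h4 : ∀ y ∈ T, g • y = y - (φ.ε * φ.b v y) • u := fun y hy => by
    rw [← sub_add_cancel (g • y) y, h3, hT.ts.b_zero hu hy]; simp [sub_eq_neg_add]
  refine ⟨g, hg, fun y hy => ?_, fun y hy => ?_, fun c => hu2 ?_⟩
  · rw [h4 y (h2.le (h1.le hy)), φ.b_symm_zero (hv y (Submodule.mem_sup_left hy))]
    simpa using hy
  · rw [h4 y hy]
    exact sub_mem hy (T.smul_mem _ hu)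
  · have := sub_mem hx (c x hx)
    rw [h4 x (h2.le hx), hv2] at this
    simpa [W.smul_mem_iff φ.ε_ne] using this

end TG

end Vale.Agent.P183WA
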