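import Vale.Agent.P183CF.Simple
import Vale.Agent.P183A.Tk

/-!
A group acting on a space with a form by collineations: the geometry behind the first width step.
-/

set_option linter.unusedSectionVars false

namespace Vale.Agent.P183WA

open Vale.Agent.P183CF Vale.Agent.P183CF.Form Vale.Agent.P183A Module Subgroup
open scoped commutatorElement

variable {F V G : Type} [Field F] [AddCommGroup V] [Module F V] [Group G] [DistribMulAction G V]

/-- The polar types. -/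
def Pol (e : V →ₗ[F] V) : Prop := ∀ x, e x = x

/-- Type `A`: two complementary totally singular subspaces. -/
def TyA (φ : Form F V) (e e' : V →ₗ[F] V) : Prop :=
  ∀ x, e x + e' x = x ∧ e (e x) = e x ∧ φ.Q (e x) = 0 ∧ φ.Q (e' x) = 0

/-- `b` acts by collineations; `I` acts as the group of isometries that commute with `e`. -/
structure TG (φ : Form F V) (e e' : V →ₗ[F] V) (I b : Subgroup G) : Prop where
  adj : ∀ x y, φ.b (e x) y = φ.b x (e' y)
  typ : Pol e ∨ TyA φ e e'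
  faith : ∀ g : G, (∀ x : V, g • x = x) → g = 1
  orth : ∀ g ∈ b, ∀ x y : V, φ.b x y = 0 → φ.b (g • x) (g • y) = 0
  sing : Pol e → ∀ g ∈ b, ∀ x : V, φ.Q x = 0 → φ.Q (g • x) = 0
  swap : ∀ g ∈ b, (∀ x, g • e x = e (g • x)) ∨ ∀ x, g • e x = e' (g • x)
  lin : ∀ g ∈ I, ∃ f ∈ φ.Isom, (∀ x, f (e x) = e (f x)) ∧ ∀ x, g • x = f x
  lift : ∀ f ∈ φ.Isom, (∀ x, f (e x) = e (f x)) → ∃ g ∈ I, ∀ x, g • x = f x

/-- `U` is invariant under `K`. -/
def Inv (K : Subgroup G) (U : Submodule F V) : Prop := ∀ g ∈ K, ∀ x ∈ U, g • x ∈ U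

/-- `U` is stable under `e`. -/
def Spl (e : V →ₗ[F] V) (U : Submodule F V) : Prop := ∀ x ∈ U, e x ∈ U

/-- The trivial subspaces. -/
def Triv (e e' : V →ₗ[F] V) (U : Submodule F V) : Prop :=
  U = ⊥ ∨ U = ⊤ ∨ U = LinearMap.range e ∨ U = LinearMap.range e'

variable (G) in
/-- The stabiliser of a subspace. -/
def stab (U : Submodule F V) : Subgroup G where
  carrier := {g | ∀ x, x ∈ U ↔ g • x ∈ U}
  one_mem' := fun x => by rw [one_smul]
  mul_mem' := fun {a c} ha hc x => by rw [mul_smul, ← ha, ← hc]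
  inv_mem' := fun {a} ha x => by rw [ha (a⁻¹ • x), smul_inv_smul]

variable (G) in
/-- The elements that are trivial on `U` and on `T` modulo `U`. -/
def qu (U T : Submodule F V) : Subgroup G where
  carrier := {g | (∀ x ∈ U, g • x = x) ∧ ∀ x ∈ T, g • x - x ∈ U}
  one_mem' := ⟨fun x _ => one_smul _ _, fun x _ => by simp⟩
  mul_mem' := fun {a c} ha hc => ⟨fun x hx => by rw [mul_smul, hc.1 x hx, ha.1 x hx], fun x hx => by
    have h1 := ha.1 _ (hc.2 x hx)
    have : (a * c) • x - x = (c • x - x) + (a • x - x) := by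
      rw [mul_smul, ← h1, smul_sub]; abel
    rw [this]
    exact add_mem (hc.2 x hx) (ha.2 x hx)⟩
  inv_mem' := fun {a} ha => ⟨fun x hx => by rw [inv_smul_eq_iff, ha.1 x hx], fun x hx => by
    have h1 : a⁻¹ • (a • x - x) = a • x - x := by rw [inv_smul_eq_iff, ha.1 _ (ha.2 x hx)]
    rw [smul_sub, inv_smul_smul] at h1
    rw [← neg_sub, h1]
    exact neg_mem (ha.2 x hx)⟩

variable (G) in
/-- The pointwise stabiliser. -/
def fx (U : Submodule F V) : Subgroup G := qu G U ⊥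

variable {K K' I b : Subgroup G} {U T W : Submodule F V} {φ : Form F V} {e e' : V →ₗ[F] V}
  {g : G}

theorem mem_fx : g ∈ fx G U ↔ ∀ x ∈ U, g • x = x :=
  ⟨fun h => h.1, fun h => ⟨h, fun x hx => by rw [Submodule.mem_bot] at hx; simp [hx]⟩⟩

theorem fx_anti (h : U ≤ T) : fx G T ≤ fx G U :=
  fun _ hg => mem_fx.2 fun x hx => mem_fx.1 hg x (h hx)

theorem qu_le_fx : qu G U T ≤ fx G U := fun _ hg => mem_fx.2 hg.1

theorem Inv.mono (h : Inv K U) (hK : K' ≤ K) : Inv K' U := fun g hg => h g (hK hg)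

theorem inv_stab : Inv (stab G U) U := fun _ hg x hx => (hg x).1 hx

theorem Inv.le_stab (h : Inv K U) : K ≤ stab G U := fun g hg x =>
  ⟨h g hg x, fun hx => by simpa using h g⁻¹ (inv_mem hg) _ hx⟩

theorem Inv.inf (h : Inv K U) (h' : Inv K T) : Inv K (U ⊓ T) :=
  fun g hg x hx => ⟨h g hg x hx.1, h' g hg x hx.2⟩

theorem mem_stab [Finite G] (h : ∀ x ∈ U, g • x ∈ U) : g ∈ stab G U := by
  refine Inv.le_stab (K := zpowers g) (fun k hk x hx => ?_) (mem_zpowers g)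
  obtain ⟨n, rfl⟩ := mem_powers_iff_mem_zpowers.2 hk
  induction n with
  | zero => simpa using hx
  | succ n ih =>
    simp only [pow_succ', mul_smul]
    exact h _ (ih (pow_mem (mem_zpowers g) n))

theorem nm_qu (h : Inv K U) (h' : Inv K T) : Nm K (qu G U T) := fun a ha y hy =>
  ⟨fun x hx => by rw [mul_smul, mul_smul, hy.1 _ (h _ (inv_mem ha) x hx), smul_inv_smul],
    fun x hx => by
      have := h a ha _ (hy.2 _ (h' _ (inv_mem ha) x hx))
      rwa [smul_sub, smul_inv_smul, ← mul_smul, ← mul_smul] at this⟩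

theorem nm_fx (h : Inv K U) : Nm K (fx G U) :=
  nm_qu h fun g _ x hx => by rw [Submodule.mem_bot] at hx ⊢; simp [hx]

theorem comm_qu : ⁅qu G U T, qu G U T⁆ ≤ fx G T := by
  have key : ∀ a ∈ qu G U T, ∀ c ∈ qu G U T, ∀ x ∈ T, a • c • x = a • x + (c • x - x) :=
    fun a ha c hc x hx => by rw [← ha.1 _ (hc.2 x hx), ← smul_add, add_sub_cancel]
  refine commutator_le.2 fun a ha c hc => mem_fx.2 fun x hx => ?_
  have h1 : a⁻¹ • c⁻¹ • x = c⁻¹ • a⁻¹ • x := by
    rw [key _ (inv_mem ha) _ (inv_mem hc) x hx, key _ (inv_mem hc) _ (inv_mem ha) x hx]; abel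
  rw [commutatorElement_def, mul_smul, mul_smul, mul_smul, h1, smul_inv_smul, smul_inv_smul]

theorem Spl.inf (h : Spl e U) (h' : Spl e T) : Spl e (U ⊓ T) :=
  fun x hx => ⟨h x hx.1, h' x hx.2⟩

theorem Spl.sup (h : Spl e U) (h' : Spl e T) : Spl e (U ⊔ T) := fun x hx => by
  obtain ⟨y, hy, z, hz, rfl⟩ := Submodule.mem_sup.1 hx
  rw [map_add]
  exact Submodule.add_mem_sup (h y hy) (h' z hz)

theorem spl_span {u : V} (h : e u = u) : Spl e (F ∙ u) := fun x hx => by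
  obtain ⟨c, rfl⟩ := Submodule.mem_span_singleton.1 hx
  rw [map_smul, h]
  exact hx

theorem Triv.symm (h : Triv e e' U) : Triv e' e U := by unfold Triv at *; tauto

namespace TyA

variable (h : TyA φ e e')
include h

theorem add (x : V) : e x + e' x = x := (h x).1

theorem ee (x : V) : e (e x) = e x := (h x).2.1

theorem e'e (x : V) : e' (e x) = 0 := by simpa [h.ee] using h.add (e x)

theorem ee' (x : V) : e (e' x) = 0 := by simpa [h.ee] using congrArg e (h.add x)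

theorem e'e' (x : V) : e' (e' x) = e' x := by simpa [h.ee'] using h.add (e' x)

theorem e'_eq (x : V) : e' x = x - e x := eq_sub_of_add_eq' (h.add x)

theorem symm : TyA φ e' e := fun x => ⟨(add_comm _ _).trans (h.add x), h.e'e' x, (h x).2.2.2,
  (h x).2.2.1⟩

theorem Q_of {x : V} (hx : e x = x) : φ.Q x = 0 := hx ▸ (h x).2.2.1

theorem zero_of {x : V} (hx : e x = x) (hx' : e' x = x) : x = 0 := by rw [← hx', ← hx, h.e'e]

end TyA

namespace TG

variable (h : TG φ e e' I b)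
include h

theorem adj' (x y : V) : φ.b (e' x) y = φ.b x (e y) := by
  rw [φ.herm, ← h.adj, ← φ.herm]

theorem pol' (hp : Pol e) : Pol e' := fun x => φ.b_inj (LinearMap.ext fun y => by
  rw [h.adj', hp])

theorem ee (x : V) : e (e x) = e x := h.typ.elim (fun hp => hp _) fun ha => ha.ee x

theorem mem_X {x : V} : x ∈ LinearMap.range e ↔ e x = x :=
  ⟨by rintro ⟨y, rfl⟩; exact h.ee y, fun hx => ⟨x, hx⟩⟩

theorem comm' {T : V → V} (hT : ∀ x y, T (x - y) = T x - T y) (hc : ∀ x, T (e x) = e (T x))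
    (x : V) : T (e' x) = e' (T x) := by
  rcases h.typ with hp | ha
  · rw [h.pol' hp, h.pol' hp]
  · rw [ha.e'_eq, ha.e'_eq, hT, hc]

theorem symm : TG φ e' e I b := by
  have hp : Pol e' → Pol e ∨ ∀ x : V, x = 0 := fun hp => h.typ.imp id fun ha x =>
    φ.nondeg x fun y => by rw [← hp y, ← h.adj, ← hp x, ha.ee', map_zero, LinearMap.zero_apply]
  refine ⟨h.adj', h.typ.imp h.pol' TyA.symm, h.faith, h.orth, fun hq g hg x hx => ?_,
    fun g hg => ?_, fun g hg => ?_, fun f hf hc => ?_⟩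
  · rcases hp hq with h1 | h1
    · exact h.sing h1 g hg x hx
    · rw [h1 (g • x), Q_zero]
  · refine (h.swap g hg).imp (h.comm' (smul_sub g)) fun hs x => ?_
    rcases h.typ with hp | ha
    · rw [h.pol' hp, hp]
    · rw [ha.e'_eq, smul_sub, hs, ha.symm.e'_eq]
  · obtain ⟨f, hf, h1, h2⟩ := h.lin g hg
    exact ⟨f, hf, h.comm' (map_sub f) h1, h2⟩
  · refine h.lift f hf fun x => ?_
    rcases h.typ with hp | ha
    · rw [hp, hp]
    · rw [ha.symm.e'_eq, ha.symm.e'_eq, map_sub, hc]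

theorem spl' (hU : Spl e U) : Spl e' U := fun x hx => by
  rcases h.typ with hp | ha
  · rwa [h.pol' hp]
  · rw [ha.e'_eq]
    exact sub_mem hx (hU x hx)

theorem spl_perp (hU : Spl e U) : Spl e (φ.perp U) := fun y hy x hx => by
  rw [← h.adj']
  exact hy _ (h.spl' hU x hx)

theorem inv_perp (hK : K ≤ b) (hU : Inv K U) : Inv K (φ.perp U) := fun g hg y hy x hx => by
  rw [← smul_inv_smul g x]
  exact h.orth g (hK hg) _ _ (hy _ (hU _ (inv_mem hg) x hx))

theorem bXX (ha : TyA φ e e') {x y : V} (hx : e x = x) (hy : e y = y) : φ.b x y = 0 := by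
  rw [← hx, h.adj, ← hy, ha.e'e, map_zero]

theorem perp_X (ha : TyA φ e e') : φ.perp (LinearMap.range e) = LinearMap.range e := by
  ext x
  rw [h.mem_X]
  refine ⟨fun hx => ?_, fun hx y hy => h.bXX ha (h.mem_X.1 hy) hx⟩
  have : e' x = 0 := φ.nondeg _ fun y => by rw [h.adj']; exact φ.b_symm_zero (hx _ ⟨y, rfl⟩)
  simpa [this] using ha.add x

theorem smul_comm' (hg : g ∈ I) (c : F) (x : V) : g • c • x = c • g • x := by
  obtain ⟨f, -, -, h2⟩ := h.lin g hg
  rw [h2, h2, map_smul]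

theorem e_comm (hg : g ∈ I) (x : V) : g • e x = e (g • x) := by
  obtain ⟨f, -, h1, h2⟩ := h.lin g hg
  rw [h2, h2, h1]

theorem b_smul (hg : g ∈ I) (x y : V) : φ.b (g • x) (g • y) = φ.b x y := by
  obtain ⟨f, hf, -, h2⟩ := h.lin g hg
  rw [h2, h2, hf.1]

theorem Q_smul (hg : g ∈ I) (x : V) : φ.Q (g • x) = φ.Q x := by
  obtain ⟨f, hf, -, h2⟩ := h.lin g hg
  rw [h2, hf.2]

theorem sub_mem_perp (hg : g ∈ I) (hU : g ∈ fx G U) (x : V) : g • x - x ∈ φ.perp U :=
  fun y hy => by rw [map_sub, ← h.b_smul hg y x, mem_fx.1 hU y hy, sub_self]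

theorem lift_comm {f k : V ≃ₗ[F] V} (hf : f ∈ φ.Isom) (hk : k ∈ φ.Isom)
    (cf : ∀ x, f (e x) = e (f x)) (ck : ∀ x, k (e x) = e (k x)) :
    ∃ g ∈ ⁅I, I⁆, ∀ x, g • x = ⁅f, k⁆ x := by
  obtain ⟨a, ha, h1⟩ := h.lift f hf cf
  obtain ⟨c, hc, h2⟩ := h.lift k hk ck
  refine ⟨⁅a, c⁆, commutator_mem_commutator ha hc, fun x => ?_⟩
  have h3 : ∀ y, a⁻¹ • y = f⁻¹ y := fun y => by rw [inv_smul_eq_iff, h1, app_inv]
  have h4 : ∀ y, c⁻¹ • y = k⁻¹ y := fun y => by rw [inv_smul_eq_iff, h2, app_inv]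
  simp only [commutatorElement_def, mul_smul, h1, h2, h3, h4, LinearEquiv.mul_apply]

theorem rho_comm (ha : TyA φ e e') {u v : V} (r : φ.RD u v 0) (hu : e u = u) (hv : e' v = v)
    (x : V) : rho r (e x) = e (rho r x) := by
  have h1 : e v = 0 := by rw [← hv, ha.ee']
  rw [rho_apply, rho_apply, h.bXX ha hu (ha.ee x), ← h.adj', hv]
  simp [h1, hu]

variable [Finite F] [FiniteDimensional F V]

theorem cm_fx : Cm (I ⊓ fx G U) (I ⊓ fx G (φ.perp U)) := fun a ha c hc => by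
  have h1 := fun x => mem_fx.1 hc.2 _ (h.sub_mem_perp ha.1 ha.2 x)
  have h2 := fun x => mem_fx.1 ha.2 _ (φ.perp_perp U ▸ h.sub_mem_perp hc.1 hc.2 x)
  rw [← mul_inv_eq_one]
  refine h.faith _ fun x => ?_
  obtain ⟨y, rfl⟩ : ∃ y, x = (c * a) • y := ⟨_, (smul_inv_smul _ x).symm⟩
  rw [mul_smul, inv_smul_smul, mul_smul, mul_smul]
  have h3 := h1 y
  have h4 := h2 y
  rw [smul_sub, sub_eq_iff_eq_add] at h3 h4
  rw [h3, h4]
  abel

theorem finrank_X (ha : TyA φ e e') : 2 * finrank F (LinearMap.range e) = finrank F V := by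
  have := φ.finrank_perp (LinearMap.range e)
  rw [h.perp_X ha] at this
  omega

/-- A vector of `range e'` orthogonal to `U` and not to `x`. -/
theorem exists_dual (hU : Spl e U) {x : V} (hx : e x = x) (hxU : x ∉ U) :
    ∃ v ∈ φ.perp U, e' v = v ∧ φ.b v x = 1 := by
  obtain ⟨f, h1, h2⟩ := exists_fun hxU
  obtain ⟨w, rfl⟩ := φ.riesz f
  exact ⟨e' w, h.spl' (h.spl_perp hU) w (φ.mem_perp'.2 h2), h.symm.ee w, by rw [h.adj', hx, h1]⟩

theorem eich_pol (hd : 11 ≤ finrank F V) (hp : Pol e) {f : V ≃ₗ[F] V} (hf : f ∈ φ.EW ⊤) :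
    ∃ g ∈ ⁅I, I⁆, ∀ x, g • x = f x := by
  let P : Subgroup (V ≃ₗ[F] V) :=
    { carrier := {f | ∃ g ∈ ⁅I, I⁆, ∀ x, g • x = f x}
      one_mem' := ⟨1, one_mem _, fun x => one_smul _ _⟩
      mul_mem' := by
        rintro f k ⟨a, ha, h1⟩ ⟨c, hc, h2⟩
        exact ⟨a * c, mul_mem ha hc, fun x => by rw [mul_smul, h2, h1, LinearEquiv.mul_apply]⟩
      inv_mem' := by
        rintro f ⟨a, ha, h1⟩
        exact ⟨a⁻¹, inv_mem ha, fun x => by rw [inv_smul_eq_iff, h1, app_inv]⟩ }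
  rw [← EW_perfect φ.nd_top (by simpa using hd)] at hf
  exact (commutator_le (H₃ := P)).2 (fun a ha c hc => h.lift_comm (EW_le_Isom _ ha)
    (EW_le_Isom _ hc) (fun x => by rw [hp, hp]) fun x => by rw [hp, hp]) hf

theorem eich_A (hd : 11 ≤ finrank F V) (ha : TyA φ e e') {u v : V} (r : φ.RD u v 0)
    (hu : e u = u) (hv : e' v = v) : ∃ g ∈ ⁅I, I⁆, ∀ x, g • x = rho r x := by
  have d1 := h.finrank_X ha
  have d2 := φ.finrank_inf_perp (LinearMap.range e) (F ∙ v)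
  have d3 := finrank_span1 (F := F) v
  have d4 := finrank_span1 (F := F) u
  obtain ⟨u', ⟨h1, h2⟩, h3⟩ : ∃ u' ∈ LinearMap.range e ⊓ φ.perp (F ∙ v), u' ∉ F ∙ u := by
    by_contra c
    push Not at c
    have := Submodule.finrank_mono (show _ ≤ F ∙ u from c)
    omega
  rw [SetLike.mem_coe, h.mem_X] at h1
  rw [SetLike.mem_coe, mem_perp_singleton] at h2
  obtain ⟨w, h4, h5, h6⟩ := h.exists_dual (spl_span hu) h1 h3
  rw [mem_perp_singleton] at h4
  have h7 : e' (φ.ε • w) = φ.ε • w := by rw [map_smul, h5]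
  have r1 : φ.RD u (φ.ε • w) 0 := ⟨r.sing, by simp [h4], by rw [ha.symm.Q_of h7, map_zero]⟩
  have r2 : φ.RD u' v 0 := ⟨ha.Q_of h1, φ.b_symm_zero h2, r.val⟩
  obtain ⟨g, hg, h8⟩ := h.lift_comm (rho_isom r2) (rho_isom r1) (h.rho_comm ha r2 h1 hv)
    (h.rho_comm ha r1 hu h7)
  refine ⟨g, hg, fun x => ?_⟩
  have h9 : φ.b v (φ.ε • w) = 0 := h.symm.bXX ha.symm hv h7
  have e1 : rho r2 * rho r1 * (rho r2)⁻¹ = rho r * rho r1 := by
    rw [rho_conj r1 (rho_isom r2), rho_mul]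
    refine rho_congr _ _ (rho_fix r2 (h.bXX ha h1 hu) r.vu) ?_ (by simp [h9])
    rw [rho_apply, h9, map_smul, φ.herm w u', h6]
    simp [add_comm]
  rw [h8, commutatorElement_def, e1, mul_inv_cancel_right]

/-- Admissible Eichler maps are induced by the derived group. -/
theorem eich (hd : 11 ≤ finrank F V) {u v : V} (hu : e u = u) (hv : e' v = v) (hQ : φ.Q u = 0)
    (huv : φ.b u v = 0) : ∃ g ∈ ⁅I, I⁆, ∃ l : F, (TyA φ e e' → ¬ Pol e → l = 0) ∧
      ∀ x, g • x - x = φ.b u x • v - (φ.ε * (φ.b v x + l * φ.b u x)) • u := by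
  rcases h.typ with hp | ha
  · obtain ⟨l, hl⟩ := φ.md_surj (φ.Q v)
    have r : φ.RD u v l := ⟨hQ, huv, hl.symm⟩
    obtain ⟨g, hg, h1⟩ := h.eich_pol hd hp (rho_EW r trivial trivial)
    exact ⟨g, hg, l, fun _ c => absurd hp c, fun x => by rw [h1, rho_apply]; abel⟩
  · have r : φ.RD u v 0 := ⟨hQ, huv, by rw [ha.symm.Q_of hv, map_zero]⟩
    obtain ⟨g, hg, h1⟩ := h.eich_A hd ha r hu hv
    exact ⟨g, hg, 0, fun _ _ => rfl, fun x => by rw [h1, rho_apply]; abel⟩

end TG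

end Vale.Agent.P183WA
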