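import Vale.Agent.P183WA.Geo2
import Vale.Agent.P183NC.Node

/-!
The first width step for a group of collineations: raising the base to an irreducible node.
-/

set_option linter.unusedSectionVars false

namespace Vale.Agent.P183WA

open Vale.Agent.P183CF Vale.Agent.P183CF.Form Vale.Agent.P183A Vale.Agent.P183NK Module Subgroup

variable {F V G : Type} [Field F] [AddCommGroup V] [Module F V] [Group G] [DistribMulAction G V]
  {H K I a b : Subgroup G} {U W : Submodule F V} {φ : Form F V} {e e' : V →ₗ[F] V} {m k : ℕ}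

variable (F V) in
/-- The fixed space of a linear group. -/
def fixS (K : Subgroup G) : Submodule F V where
  carrier := {x | ∀ g ∈ K, ∀ c : F, g • c • x = c • x}
  zero_mem' := fun g _ c => by simp
  add_mem' := fun hx hy g hg c => by rw [smul_add, smul_add, hx g hg, hy g hg]
  smul_mem' := fun t x hx g hg c => by rw [smul_smul c, hx g hg]

theorem fixS_anti {K' : Subgroup G} (h : K ≤ K') : fixS F V K' ≤ fixS F V K :=
  fun _ hx g hg => hx g (h hg)

theorem le_fx_fixS : K ≤ fx G (fixS F V K) := fun g hg => mem_fx.2 fun x hx => by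
  simpa using hx g hg 1

theorem TG.le_fixS (h : TG φ e e' I b) (hK : K ≤ I) (hU : K ≤ fx G U) : U ≤ fixS F V K :=
  fun x hx g hg c => by rw [h.smul_comm' (hK hg), mem_fx.1 (hU hg) x hx]

theorem TG.mem_fixS (h : TG φ e e' I b) (hK : K ≤ I) {x : V} (hx : ∀ g ∈ K, g • x = x) :
    x ∈ fixS F V K := fun g hg c => by rw [h.smul_comm' (hK hg), hx g hg]

/-- The invariant totally singular subspaces are trivial or, in the polar types, Lagrangian. -/
def TSL (φ : Form F V) (e e' : V →ₗ[F] V) (K : Subgroup G) : Prop :=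
  ∀ U, Spl e U → Inv K U → φ.TS U → ¬ Triv e e' U → Pol e ∧ φ.perp U = U

/-- The invariant totally singular subspaces are trivial. -/
def TSF (φ : Form F V) (e e' : V →ₗ[F] V) (K : Subgroup G) : Prop :=
  ∀ U, Spl e U → Inv K U → φ.TS U → Triv e e' U

theorem TSF.mono (h : TSF φ e e' a) (hK : a ≤ K) : TSF φ e e' K :=
  fun U h1 h2 => h U h1 (h2.mono hK)

/-- The standing hypotheses. -/
structure Ctx (φ : Form F V) (e e' : V →ₗ[F] V) (I H a b : Subgroup G) : Prop where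
  tg : TG φ e e' I b
  dim : 11 ≤ finrank F V
  top : EE H b = ⁅I, I⁆
  hairy : Hairy H a b
  le : a ≤ b

variable [Finite F] [FiniteDimensional F V] [Finite G]

namespace Ctx

variable (h : Ctx φ e e' I H a b)
include h

theorem up (h1 : a ≤ K) (h2 : K ≤ b) : Ctx φ e e' I H K b :=
  ⟨h.tg, h.dim, h.top, h.hairy.up h1, h2⟩

theorem symm : Ctx φ e' e I H a b := ⟨h.tg.symm, h.dim, h.top, h.hairy, h.le⟩

theorem nomod : NoMod H a := h.hairy.nomod le_rfl h.le

theorem nomod_b : NoMod H b := h.hairy.nomod h.le le_rfl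

theorem om_le : ⁅I, I⁆ ≤ b := h.top ▸ EE_le h.nomod_b

theorem nm_om : Nm b ⁅I, I⁆ := h.top ▸ nm_EE H b

theorem EE_om : EE H a ≤ ⁅I, I⁆ := h.top ▸ EE_mono h.nomod h.nomod_b h.le

theorem EE_I : EE H a ≤ I := h.EE_om.trans (commutator_le_self _)

theorem le_sup : a ≤ H ⊔ I := (sup_EE h.nomod).ge.trans (sup_le_sup_left h.EE_I _)

theorem le_N (hi : Inv a U) : a ≤ b ⊓ stab G U := le_inf h.le hi.le_stab

theorem N_lt (hs : Spl e U) (hn : ¬ Triv e e' U) : b ⊓ stab G U < b :=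
  lt_of_le_of_ne inf_le_left fun c =>
    hn (h.tg.om_irr h.dim hs (inv_stab.mono (h.om_le.trans (c.ge.trans inf_le_right))))

theorem qu_le (ht : φ.TS U) (hi : Inv a U) : ⁅I, I⁆ ⊓ qu G U (φ.perp U) ≤ H := by
  have hn := h.up (h.le_N hi) inf_le_left
  have i1 : Inv (b ⊓ stab G U) U := inv_stab.mono inf_le_right
  refine (le_or_EE_le hn.nomod (le_inf (inf_le_left.trans h.om_le) (Inv.le_stab fun g hg x hx => by
    rwa [hg.2.1 x hx])) ((h.nm_om.mono inf_le_left).inf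
      (nm_qu i1 (h.tg.inv_perp inf_le_left i1)))).resolve_right fun c => EE_not_cm hn.nomod ?_
  have h1 := (EE_perfect hn.nomod).trans ((commutator_mono (c.trans inf_le_right)
    (c.trans inf_le_right)).trans comm_qu)
  exact h.tg.cm_fx.mono (le_inf hn.EE_I (h1.trans (fx_anti ht.2))) (le_inf hn.EE_I h1)

omit h in
theorem ne_of_arms {c : Subgroup G → Fin m} {z : Fin m → Subgroup G} (hA : Arms m k a b c z)
    {i j : Fin m} (hij : i ≠ j) (h1 : Inv (z i) U) (h2 : Inv (z j) W)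
    (hU : b ⊓ stab G U < b) : U ≠ W := fun c => hij (hA.eq_of_le hU
      (le_inf (hA.z_lt i).le h1.le_stab) (le_inf (hA.z_lt j).le (c ▸ h2.le_stab)))

theorem step1 (hm : 3 ≤ m) (hg : Good m (k + 1) a b) :
    ∃ a', a < a' ∧ Good m k a' b ∧ TSL φ e e' a' := by
  refine hg.raise (r := 2) hm _ fun c z hA => card_le_two_of ?_
  have key : ∀ i, ¬ TSL φ e e' (z i) →
      ∃ U, Rel φ e e' H U ∧ Inv (z i) U ∧ ¬ (Pol e ∧ φ.perp U = U) := fun i hi => by
    unfold TSL at hi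
    push Not at hi
    obtain ⟨U, h1, h2, h3, h4, h5⟩ := hi
    have hz := h.up (hA.lt_z i).le (hA.z_lt i).le
    obtain ⟨U', h6, h7, h8⟩ := h.tg.exists_rel hz.hairy.le hz.le hz.le_sup h1 h3 h4 h2
    exact ⟨U', h6, h7, fun c => h5 c.1 (h8 c.1 ▸ c.2)⟩
  choose! U hU using key
  have lt : ∀ i, ¬ TSL φ e e' (z i) → b ⊓ stab G (U i) < b := fun i hi =>
    h.N_lt (hU i hi).1.spl (hU i hi).1.nt
  have cm : ∀ i j, ¬ TSL φ e e' (z i) → ¬ TSL φ e e' (z j) → U i ≤ U j ∨ U j ≤ U i :=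
    fun i j hi hj => (h.tg.cmp h.dim (h.hairy.le.trans h.le) (hU i hi).1 (hU j hj).1
      (h.qu_le (hU i hi).1.ts ((hU i hi).2.1.mono (hA.lt_z i).le))).imp id fun c =>
        c.resolve_right fun c => (hU i hi).2.2 ⟨c.1, c.2.1⟩
  have no3 : ∀ i j l, ¬ TSL φ e e' (z i) → ¬ TSL φ e e' (z j) → ¬ TSL φ e e' (z l) → i ≠ j →
      i ≠ l → j ≠ l → U i ≤ U j → U j ≤ U l → False := fun i j l hi hj hl h1 h2 h3 h4 h5 => by
    obtain ⟨g, hg, h6, h7, h8⟩ := h.tg.chain3 h.dim (hU i hi).1 (hU j hj).1 (hU l hl).1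
      (h4.lt_of_ne (ne_of_arms hA h1 (hU i hi).2.1 (hU j hj).2.1 (lt i hi)))
      (h5.lt_of_ne (ne_of_arms hA h3 (hU j hj).2.1 (hU l hl).2.1 (lt j hj)))
    have := hA.inf_eq h2 (le_inf (hA.z_lt i).le (hU i hi).2.1.le_stab) (lt i hi)
      (le_inf (hA.z_lt l).le (hU l hl).2.1.le_stab) (lt l hl)
    exact h8 ((hU j hj).2.1 g ((hA.lt_z j).le
      (this.le ⟨⟨h.om_le hg, mem_stab h6⟩, h.om_le hg, mem_stab h7⟩)))
  intro i j l hi hj hl h1 h2 h3
  rcases cm i j hi hj with c1 | c1 <;> rcases cm j l hj hl with c2 | c2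
  · exact no3 i j l hi hj hl h1 h2 h3 c1 c2
  · rcases cm i l hi hl with c3 | c3
    · exact no3 i l j hi hl hj h2 h1 h3.symm c3 c2
    · exact no3 l i j hl hi hj h2.symm h3.symm h1 c3 c1
  · rcases cm i l hi hl with c3 | c3
    · exact no3 j i l hj hi hl h1.symm h3 h2 c1 c3
    · exact no3 j l i hj hl hi h3 h1.symm h2.symm c2 c3
  · exact no3 l j i hl hj hi h3.symm h2.symm h1.symm c2 c1

theorem step2 (hm : 3 ≤ m) (hg : Good m (k + 1) a b) (hL : TSL φ e e' a) :
    ∃ a', a < a' ∧ Good m k a' b ∧ TSF φ e e' a' := by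
  refine hg.raise_one (by omega) _ fun c z hA i j hi hj => by_contra fun hij => ?_
  unfold TSF at hi hj
  push Not at hi hj
  obtain ⟨U, u1, u2, u3, u4⟩ := hi
  obtain ⟨W, w1, w2, w3, w4⟩ := hj
  have u5 := u2.mono (hA.lt_z i).le
  have w5 := w2.mono (hA.lt_z j).le
  obtain ⟨hp, u6⟩ := hL U u1 u5 u3 u4
  obtain ⟨-, w6⟩ := hL W w1 w5 w3 w4
  have hne := ne_of_arms hA hij u2 w2 (h.N_lt u1 u4)
  have h1 : ¬ U ≤ W := fun c => hne (le_antisymm c (by rw [← u6, ← w6]; exact φ.perp_anti c))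
  have h2 : ¬ W ≤ U := fun c => hne (le_antisymm (by rw [← u6, ← w6]; exact φ.perp_anti c) c)
  obtain ⟨-, -, u, hu⟩ := ((h.tg.cmp h.dim (h.hairy.le.trans h.le)
    ⟨u1, u3, u4, u5.mono h.hairy.le, Or.inr fun x _ => hp x⟩
    ⟨w1, w3, w4, w5.mono h.hairy.le, Or.inr fun x _ => hp x⟩
    (h.qu_le u3 u5)).resolve_left h1).resolve_left h2
  by_cases c : Triv e e' (U ⊓ W)
  · have h3 : ∀ {e : V →ₗ[F] V}, Pol e → U ⊓ W ≠ LinearMap.range e := fun hp c =>
      h1 fun x _ => (c.ge ⟨x, hp x⟩).2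
    rcases c with c | c | c | c
    · have d1 := Submodule.finrank_mono hu
      have d2 := finrank_span1 (F := F) u
      have d3 := φ.finrank_perp U
      have d4 := h.dim
      rw [c, bot_sup_eq] at d1
      rw [u6] at d3
      omega
    · exact h1 fun x _ => (c.ge trivial).2
    · exact h3 hp c
    · exact h3 (h.tg.pol' hp) c
  · have := (hL _ (u1.inf w1) (u5.inf w5) (u3.mono inf_le_left) c).2
    exact h1 (u6.ge.trans ((φ.perp_anti inf_le_left).trans (this.le.trans inf_le_right)))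

theorem spl_fix : Spl e (fixS F V (EE H a)) := fun x hx => h.tg.mem_fixS h.EE_I fun g hg => by
  rw [h.tg.e_comm (h.EE_I hg), mem_fx.1 (le_fx_fixS hg) x hx]

theorem inv_fix : Inv a (fixS F V (EE H a)) := fun s hs x hx => h.tg.mem_fixS h.EE_I fun g hg => by
  have := mem_fx.1 (le_fx_fixS (nm_EE H a _ (inv_mem hs) g hg)) x hx
  rwa [inv_inv, mul_smul, mul_smul, inv_smul_eq_iff] at this

theorem not_X : ¬ LinearMap.range e ≤ fixS F V (EE H a) := fun c =>
  EE_ne_bot h.nomod (eq_bot_iff.2 fun g hg => by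
    have h1 := fx_anti c (le_fx_fixS hg)
    exact h.tg.typ.elim (fun hp => h.tg.faith g fun x => mem_fx.1 h1 x ⟨x, hp x⟩)
      fun ha => h.tg.eq_one_of_fix ha (h.EE_I hg) h1)

theorem nontriv : Nontrivial V := nontrivial_of_finrank_pos (R := F) (by have := h.dim; omega)

theorem an_fix (ht : TSF φ e e' a) : An φ (fixS F V (EE H a) ⊓ φ.perp (fixS F V (EE H a))) :=
  (h.tg.rad h.le h.nontriv ht h.spl_fix h.inv_fix).resolve_left fun c =>
    c.2.elim (fun c => h.not_X c.ge) fun c => h.symm.not_X c.ge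

theorem step3 (hm : 3 ≤ m) (hg : Good m (k + 1) a b) (ht : TSF φ e e' a)
    (h0 : fixS F V (EE H a) ≠ ⊥) : ∃ a', a ≤ a' ∧ Good m k a' b ∧ (fixS F V (EE H a') = ⊥ ∨
      min (finrank F (fixS F V (EE H a'))) 11 < min (finrank F (fixS F V (EE H a))) 11) := by
  obtain ⟨a', h1, h2, h3⟩ := hg.raise_not_le (by omega) (h.N_lt h.spl_fix (by
    rintro (c | c | c | c)
    · exact h0 c
    · exact h.not_X (le_top.trans c.ge)
    · exact h.not_X c.ge
    · exact h.symm.not_X c.ge))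
  have h' := h.up h1.le h2.lt.le
  have h4 : fixS F V (EE H a') < fixS F V (EE H a) :=
    (fixS_anti (EE_mono h.nomod h'.nomod h1.le)).lt_of_ne fun c => h3 (c ▸ h'.le_N h'.inv_fix)
  have h5 : Inv (⁅I, I⁆ ⊓ fx G (φ.perp (fixS F V (EE H a)))) (fixS F V (EE H a')) :=
    h'.inv_fix.mono (((le_inf (inf_le_left.trans h.om_le) (cm_iff.1 (h.tg.cm_fx.symm.mono
      (inf_le_inf_right _ (commutator_le_self _)) (le_inf h.EE_I le_fx_fixS)))).trans
        (h.hairy.cent_le le_rfl h.le)).trans h'.hairy.le)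
  refine ⟨a', h1.le, h2, ?_⟩
  have d1 := Submodule.finrank_lt_finrank_of_lt h4
  have d2 := (h.an_fix ht).finrank_le
  rcases h.tg.typ with hp | ha
  · by_cases c : finrank F (fixS F V (EE H a)) < 11
    · exact Or.inr (by omega)
    have d3 := Submodule.finrank_mono (le_inf h4.le
      ((h.tg.irr_pol h.dim hp h4.le h5 (by omega)).resolve_right h4.not_ge))
    exact Or.inr (by omega)
  refine Or.inl (by_contra fun c => h4.not_ge fun x hx => ?_)
  have n1 : φ.Nd _ := h.tg.an_A ha (h.spl_fix.inf (h.tg.spl_perp h.spl_fix)) (h.an_fix ht)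
  have n2 : φ.Nd _ := h.tg.an_A ha (h'.spl_fix.inf (h.tg.spl_perp h'.spl_fix))
    (h'.an_fix (ht.mono h1.le))
  have key : ∀ {e e' : V →ₗ[F] V}, Ctx φ e e' I H a b → Ctx φ e e' I H a' b → TyA φ e e' →
      e x ∈ fixS F V (EE H a') := fun {e e'} h h' ha => by
    obtain ⟨y, hy, hy0⟩ : ∃ y ∈ fixS F V (EE H a'), e y ≠ 0 := by
      by_contra c'
      push Not at c'
      have : ∀ y ∈ fixS F V (EE H a'), e' y = y := fun y hy => by
        rw [ha.e'_eq, c' y hy, sub_zero]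
      exact c (eq_bot_iff.2 fun y hy => n2.eq_zero hy fun w hw =>
        h.tg.symm.bXX ha.symm (this y hy) (this w hw))
    exact h.tg.irr_A h.dim ha n1 h.spl_fix h5 (h'.spl_fix y hy) (h4.le (h'.spl_fix y hy)) hy0
      (ha.ee y) (h.spl_fix x hx) (ha.ee x)
  rw [← ha.add x]
  exact add_mem (key h h' ha) (key h.symm h'.symm ha.symm)

theorem final (ht : TSF φ e e' a) (h0 : fixS F V (EE H a) = ⊥) (hs : Spl e W) (hi : Inv a W) :
    Triv e e' W := by
  rcases h.tg.rad h.le h.nontriv ht hs hi with c | c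
  · exact Or.inr (Or.inr c.2)
  have hE := EE_le h.nomod
  have hW : φ.Nd W := le_bot_iff.1 (h0 ▸ h.tg.le_fixS h.EE_I fun g hg => h.tg.fix_of_an (h.EE_I hg)
    (fun x hx y hy => hx.2 y hy.1) c ((hi.inf (h.tg.inv_perp h.le hi)) g (hE hg)))
  have key : ∀ U, Inv a U → U = ⊥ ∨ ⁅I, I⁆ ⊓ fx G U ≤ H := fun U hU => by
    have hn := h.up (h.le_N hU) inf_le_left
    refine (le_or_EE_le hn.nomod (le_inf (inf_le_left.trans h.om_le) (Inv.le_stab
      fun g hg x hx => by rwa [mem_fx.1 hg.2 x hx])) ((h.nm_om.mono inf_le_left).inf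
        (nm_fx (inv_stab.mono inf_le_right)))).symm.imp (fun c => le_bot_iff.1 ?_) id
    exact h0 ▸ h.tg.le_fixS h.EE_I
      ((EE_mono h.nomod hn.nomod (h.le_N hU)).trans (c.trans inf_le_right))
  rcases key W hi with c1 | c1
  · exact Or.inl c1
  rcases key _ (h.tg.inv_perp h.le hi) with c2 | c2
  · exact Or.inr (Or.inl (φ.perp_eq_bot.1 c2))
  exact absurd ((EE_perfect h.nomod).trans ((h.tg.dec hW hs h.EE_I (hi.mono hE)).trans
    (sup_le c1 c2))) (EE_nle h.nomod)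

theorem main (hm : 3 ≤ m) (hg : Good m (k + 14) a b) :
    ∃ a', a ≤ a' ∧ Good m k a' b ∧ ∀ W, Spl e W → Inv a' W → Triv e e' W := by
  obtain ⟨a₁, l1, g1, t1⟩ := h.step1 (k := k + 13) hm hg
  have h1 := h.up l1.le g1.lt.le
  obtain ⟨a₂, l2, g2, t2⟩ := h1.step2 (k := k + 12) hm g1 t1
  have h2 := h1.up l2.le g2.lt.le
  obtain ⟨a₃, l3, g3, t3⟩ := Good.potential (k := k) (x := a₂)
    (fun y => min (finrank F (fixS F V (EE H y))) 11) (fun y => fixS F V (EE H y) = ⊥)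
    (fun y k hy hg hq => (h2.up hy hg.lt.le).step3 hm hg (t2.mono hy) hq) 11 a₂ le_rfl
    (min_le_right _ _) g2
  exact ⟨a₃, l1.le.trans (l2.le.trans l3), g3, fun W =>
    (h2.up l3 g3.lt.le).final (t2.mono l3) t3⟩

end Ctx

end Vale.Agent.P183WA
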